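import Vale.Agent.P340N2.Main

/-!
The Barendregt-Geuvers-Klop conjecture for pure type systems with named variables, expressions
being taken modulo renaming of bound variables.
-/

namespace Vale.Agent.Results.P340.ANamedTerms

open Vale.Agent.P340N2

universe u v

theorem result {S : Type u} (P : PTS S) (V : Type v) [DecidableEq V] [Countable V] [Infinite V] :
    (WN P V ↔ SN P V) ∧
    (∀ (M : Expr S V) (x : V) (N : Expr S V), ∃! Q, IsSub M x N Q) ∧
    ∀ (Γ : List (V × Expr S V)) (M B : Expr S V), Typ P Γ M B → (Γ.map Prod.fst).Nodup :=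
  ⟨⟨sn_of_wn, wn_of_sn⟩, existsUnique_sub, fun _ _ _ => Typ.nodup⟩

end Vale.Agent.Results.P340.ANamedTerms
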